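/-
Helper31 — S0175 project: auxiliary lemmas for package HY-b (potential theory of the concrete
instance): symmetry of `tripleCostM`, the diameter of the torus, "wrong-type" triples (two points
of the torus, or no point of the torus) are strictly admissible, bounds for the potentials.
-/
import Mathlib
import Crest.Agent.Helper32.GeomDefs
import Crest.Agent.Helper31.Geom.G1

set_option autoImplicit false
open MeasureTheory Set
open scoped ENNReal
open Crest.AnalysisR.OT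
open Crest.Agent.Helper32

namespace Crest.Agent.Helper31

variable {k : ℕ}

/-! ### symmetry and positivity of the model cost -/

theorem dM_comm (p q : MS k) : dM p q = dM q p := by
  unfold dM
  rw [norm_sub_rev p.1 q.1, norm_sub_rev p.2 q.2]

theorem pairCostM_comm (s : ℝ) (p q : MS k) : pairCostM s p q = pairCostM s q p := by
  unfold pairCostM
  rw [dM_comm]

theorem tripleCostM_symm12 (s : ℝ) (x y z : MS k) :
    tripleCostM s (y, x, z) = tripleCostM s (x, y, z) := by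
  unfold tripleCostM
  simp only
  rw [pairCostM_comm s y x]
  ring

theorem tripleCostM_symm23 (s : ℝ) (x y z : MS k) :
    tripleCostM s (x, z, y) = tripleCostM s (x, y, z) := by
  unfold tripleCostM
  simp only
  rw [pairCostM_comm s z y]
  ring

/-- cyclic shift `(x, y, z) ↦ (y, z, x)` -/
theorem tripleCostM_cycle (s : ℝ) (x y z : MS k) :
    tripleCostM s (y, z, x) = tripleCostM s (x, y, z) := by
  rw [tripleCostM_symm23, tripleCostM_symm12]

/-- cyclic shift `(x, y, z) ↦ (z, x, y)` -/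
theorem tripleCostM_cycle' (s : ℝ) (x y z : MS k) :
    tripleCostM s (z, x, y) = tripleCostM s (x, y, z) := by
  rw [tripleCostM_symm12, tripleCostM_symm23]

theorem tripleCostM_pos {s : ℝ} (hs : 0 < s) (x y z : MS k) : 0 < tripleCostM s (x, y, z) := by
  rw [tripleCostM_eq]
  exact Riesz.tripleCost_pos _ _ _ hs

theorem pairCostM_le_tripleCostM12 (s : ℝ) (x y z : MS k) :
    pairCostM s x y ≤ tripleCostM s (x, y, z) := by
  unfold tripleCostM
  simp only
  exact le_add_right (le_add_right le_rfl)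

theorem pairCostM_le_tripleCostM13 (s : ℝ) (x y z : MS k) :
    pairCostM s x z ≤ tripleCostM s (x, y, z) := by
  unfold tripleCostM
  simp only
  exact le_add_right le_add_self

theorem pairCostM_le_tripleCostM23 (s : ℝ) (x y z : MS k) :
    pairCostM s y z ≤ tripleCostM s (x, y, z) := by
  unfold tripleCostM
  simp only
  exact le_add_self

/-! ### the torus -/

theorem torus_norm_fst_sq {ε : ℝ} {x : MS k} (hx : x ∈ torus ε) :
    ε < ‖x.1‖ ^ 2 ∧ ‖x.1‖ ^ 2 < 3 * ε := by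
  have h : (‖x.1‖ ^ 2 - 2 * ε) ^ 2 + ‖x.2‖ ^ 2 < ε ^ 2 := hx
  have h2 : (‖x.1‖ ^ 2 - 2 * ε) ^ 2 < ε ^ 2 := by
    have : 0 ≤ ‖x.2‖ ^ 2 := by positivity
    linarith
  have h3 := abs_lt_of_sq_lt_sq' h2
  constructor <;> nlinarith [abs_lt_of_sq_lt_sq h2 (by nlinarith : (0:ℝ) ≤ ε)]

theorem torus_norm_snd {ε : ℝ} {x : MS k} (hx : x ∈ torus ε) : ‖x.2‖ ^ 2 < ε ^ 2 := by
  have h : (‖x.1‖ ^ 2 - 2 * ε) ^ 2 + ‖x.2‖ ^ 2 < ε ^ 2 := hx
  have : 0 ≤ (‖x.1‖ ^ 2 - 2 * ε) ^ 2 := by positivity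
  linarith

theorem torus_eps_pos {ε : ℝ} {x : MS k} (hx : x ∈ torus ε) : 0 < ε := by
  have h := torus_norm_fst_sq hx
  have : 0 ≤ ‖x.1‖ ^ 2 := by positivity
  linarith

/-- the diameter of the torus -/
theorem torus_dM_le {ε : ℝ} {x x' : MS k} (hx : x ∈ torus ε) (hx' : x' ∈ torus ε) :
    dM x x' ≤ 2 * Real.sqrt (3 * ε) + 2 * ε := by
  have hε := torus_eps_pos hx
  have h1 : ‖x.1‖ ≤ Real.sqrt (3 * ε) :=
    (le_abs_self _).trans (Real.abs_le_sqrt (torus_norm_fst_sq hx).2.le)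
  have h1' : ‖x'.1‖ ≤ Real.sqrt (3 * ε) :=
    (le_abs_self _).trans (Real.abs_le_sqrt (torus_norm_fst_sq hx').2.le)
  have h2 : ‖x.2‖ ≤ ε := by
    have := torus_norm_snd hx
    nlinarith [norm_nonneg x.2]
  have h2' : ‖x'.2‖ ≤ ε := by
    have := torus_norm_snd hx'
    nlinarith [norm_nonneg x'.2]
  have a1 : ‖x.1 - x'.1‖ ≤ 2 * Real.sqrt (3 * ε) := by
    have := norm_sub_le x.1 x'.1
    linarith
  have a2 : ‖x.2 - x'.2‖ ≤ 2 * ε := by
    have := norm_sub_le x.2 x'.2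
    linarith
  have hs3 : 0 ≤ Real.sqrt (3 * ε) := Real.sqrt_nonneg _
  unfold dM
  rw [Real.sqrt_le_iff]
  constructor
  · positivity
  · have b1 : ‖x.1 - x'.1‖ ^ 2 ≤ (2 * Real.sqrt (3 * ε)) ^ 2 :=
      pow_le_pow_left₀ (norm_nonneg _) a1 2
    have b2 : ‖x.2 - x'.2‖ ^ 2 ≤ (2 * ε) ^ 2 := pow_le_pow_left₀ (norm_nonneg _) a2 2
    nlinarith

/-- two points of the torus: the pair cost beats `9 (1 + s/2)` -/
theorem pairCostM_torus {s w2 ε : ℝ} (hp : GoodParams s w2 ε) {x x' : MS k} (hx : x ∈ torus ε)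
    (hx' : x' ∈ torus ε) : ENNReal.ofReal (9 * (1 + s / 2)) < pairCostM s x x' := by
  rw [pairCostM_eq]
  by_cases h : WithLp.toLp 2 x = WithLp.toLp 2 x'
  · rw [h, Riesz.pairCost_self _ hp.hs]
    exact ENNReal.ofReal_lt_top
  · rw [Riesz.pairCost_of_ne h]
    have hpos : 0 < ‖WithLp.toLp 2 x - WithLp.toLp 2 x'‖ := norm_pos_iff.mpr (sub_ne_zero.mpr h)
    have hle : ‖WithLp.toLp 2 x - WithLp.toLp 2 x'‖ ≤ 2 * Real.sqrt (3 * ε) + 2 * ε := by
      rw [← dM_eq_norm]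
      exact torus_dM_le hx hx'
    have h1 : (2 * Real.sqrt (3 * ε) + 2 * ε) ^ (-s)
        ≤ ‖WithLp.toLp 2 x - WithLp.toLp 2 x'‖ ^ (-s) :=
      Real.rpow_le_rpow_of_nonpos hpos hle (by linarith [hp.hs])
    exact (ENNReal.ofReal_lt_ofReal_iff (lt_of_lt_of_le (by
      have := hp.hs
      positivity) (hp.hdiam.le.trans h1))).mpr (lt_of_lt_of_le hp.hdiam h1)

/-- a triple with two points of the torus (positions 1, 2) -/
theorem tripleCostM_torus12 {s w2 ε : ℝ} (hp : GoodParams s w2 ε) {x x' : MS k}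
    (hx : x ∈ torus ε) (hx' : x' ∈ torus ε) (z : MS k) :
    ENNReal.ofReal (9 * (1 + s / 2)) < tripleCostM s (x, x', z) :=
  lt_of_lt_of_le (pairCostM_torus hp hx hx') (pairCostM_le_tripleCostM12 s x x' z)

/-- a triple with two points of the torus (positions 1, 3) -/
theorem tripleCostM_torus13 {s w2 ε : ℝ} (hp : GoodParams s w2 ε) {x x' : MS k}
    (hx : x ∈ torus ε) (hx' : x' ∈ torus ε) (z : MS k) :
    ENNReal.ofReal (9 * (1 + s / 2)) < tripleCostM s (x, z, x') :=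
  lt_of_lt_of_le (pairCostM_torus hp hx hx') (pairCostM_le_tripleCostM13 s x z x')

/-- a triple with two points of the torus (positions 2, 3) -/
theorem tripleCostM_torus23 {s w2 ε : ℝ} (hp : GoodParams s w2 ε) {x x' : MS k}
    (hx : x ∈ torus ε) (hx' : x' ∈ torus ε) (z : MS k) :
    ENNReal.ofReal (9 * (1 + s / 2)) < tripleCostM s (z, x, x') :=
  lt_of_lt_of_le (pairCostM_torus hp hx hx') (pairCostM_le_tripleCostM23 s z x x')

/-! ### bounds for the potentials -/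

theorem u1_le {s w : ℝ} (hs : 0 < s) (hw : 0 < w) (hw' : 2 * w ^ 2 < 1) (x : MS k) :
    u1 s w x ≤ 3 * (1 + s / 2) := by
  rw [u1_eq s w hw]
  exact Riesz.uA_le _ _ hs (by positivity) (by linarith) zero_le_one _

theorem UB_nonpos {s : ℝ} (hs : 0 < s) (y : MS k) : UB s y ≤ 0 := by
  rw [UB_eq]
  exact Riesz.uB_nonpos _ _ hs zero_le_one _

theorem uG_of_mem {s w2 ε : ℝ} {x : MS k} (hx : x ∈ torus ε) :
    uG s w2 ε x = u1 s (wA s w2 x) x := by
  unfold uG
  rw [if_pos hx]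

theorem uG_of_not_mem {s w2 ε : ℝ} {x : MS k} (hx : x ∉ torus ε) : uG s w2 ε x = UB s x := by
  unfold uG
  rw [if_neg hx]

/-- the potential is bounded above by `3 (1 + s/2)` (given that the apex shape is admissible on the
torus) -/
theorem uG_le {s w2 ε : ℝ} (hs : 0 < s) (x : MS k)
    (hw : x ∈ torus ε → 0 < wA s w2 x ∧ 2 * wA s w2 x ^ 2 < 1) :
    uG s w2 ε x ≤ 3 * (1 + s / 2) := by
  by_cases hx : x ∈ torus ε
  · rw [uG_of_mem hx]
    exact u1_le hs (hw hx).1 (hw hx).2 x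
  · rw [uG_of_not_mem hx]
    have := UB_nonpos hs x
    have : (0 : ℝ) ≤ 3 * (1 + s / 2) := by positivity
    linarith

/-! ### wrong-type triples are strictly admissible -/

/-- abstract form: three real numbers `≤ 3 (1 + s/2)` against a triple with two torus points in
positions 1, 2 -/
theorem lt_cost_torus12 {s w2 ε : ℝ} (hp : GoodParams s w2 ε) {a b c : ℝ}
    (ha : a ≤ 3 * (1 + s / 2)) (hb : b ≤ 3 * (1 + s / 2)) (hc : c ≤ 3 * (1 + s / 2))
    {x x' : MS k} (hx : x ∈ torus ε) (hx' : x' ∈ torus ε) (z : MS k) :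
    ENNReal.ofReal (a + b + c) < tripleCostM s (x, x', z) :=
  lt_of_le_of_lt (ENNReal.ofReal_le_ofReal (by linarith)) (tripleCostM_torus12 hp hx hx' z)

theorem lt_cost_torus13 {s w2 ε : ℝ} (hp : GoodParams s w2 ε) {a b c : ℝ}
    (ha : a ≤ 3 * (1 + s / 2)) (hb : b ≤ 3 * (1 + s / 2)) (hc : c ≤ 3 * (1 + s / 2))
    {x x' : MS k} (hx : x ∈ torus ε) (hx' : x' ∈ torus ε) (z : MS k) :
    ENNReal.ofReal (a + b + c) < tripleCostM s (x, z, x') :=
  lt_of_le_of_lt (ENNReal.ofReal_le_ofReal (by linarith)) (tripleCostM_torus13 hp hx hx' z)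

theorem lt_cost_torus23 {s w2 ε : ℝ} (hp : GoodParams s w2 ε) {a b c : ℝ}
    (ha : a ≤ 3 * (1 + s / 2)) (hb : b ≤ 3 * (1 + s / 2)) (hc : c ≤ 3 * (1 + s / 2))
    {x x' : MS k} (hx : x ∈ torus ε) (hx' : x' ∈ torus ε) (z : MS k) :
    ENNReal.ofReal (a + b + c) < tripleCostM s (z, x, x') :=
  lt_of_le_of_lt (ENNReal.ofReal_le_ofReal (by linarith)) (tripleCostM_torus23 hp hx hx' z)

/-- abstract form: three nonpositive numbers against any triple -/
theorem lt_cost_nonpos {s : ℝ} (hs : 0 < s) {a b c : ℝ} (ha : a ≤ 0) (hb : b ≤ 0) (hc : c ≤ 0)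
    (x y z : MS k) : ENNReal.ofReal (a + b + c) < tripleCostM s (x, y, z) := by
  rw [ENNReal.ofReal_of_nonpos (by linarith)]
  exact tripleCostM_pos hs x y z

/-- **Wrong-type triples for `uG`**: if at least two of the three points lie in the torus, or none
does, then the sum of the potentials is strictly below the cost. -/
theorem uG_lt_cost_of_two_torus12 {s w2 ε : ℝ} (hp : GoodParams s w2 ε)
    (hw : ∀ x : MS k, x ∈ torus ε → 0 < wA s w2 x ∧ 2 * wA s w2 x ^ 2 < 1)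
    {x x' : MS k} (hx : x ∈ torus ε) (hx' : x' ∈ torus ε) (z : MS k) :
    ENNReal.ofReal (uG s w2 ε x + uG s w2 ε x' + uG s w2 ε z) < tripleCostM s (x, x', z) :=
  lt_cost_torus12 hp (uG_le hp.hs x (hw x)) (uG_le hp.hs x' (hw x')) (uG_le hp.hs z (hw z))
    hx hx' z

theorem uG_lt_cost_of_two_torus13 {s w2 ε : ℝ} (hp : GoodParams s w2 ε)
    (hw : ∀ x : MS k, x ∈ torus ε → 0 < wA s w2 x ∧ 2 * wA s w2 x ^ 2 < 1)
    {x x' : MS k} (hx : x ∈ torus ε) (hx' : x' ∈ torus ε) (z : MS k) :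
    ENNReal.ofReal (uG s w2 ε x + uG s w2 ε z + uG s w2 ε x') < tripleCostM s (x, z, x') :=
  lt_cost_torus13 hp (uG_le hp.hs x (hw x)) (uG_le hp.hs z (hw z)) (uG_le hp.hs x' (hw x'))
    hx hx' z

theorem uG_lt_cost_of_two_torus23 {s w2 ε : ℝ} (hp : GoodParams s w2 ε)
    (hw : ∀ x : MS k, x ∈ torus ε → 0 < wA s w2 x ∧ 2 * wA s w2 x ^ 2 < 1)
    {x x' : MS k} (hx : x ∈ torus ε) (hx' : x' ∈ torus ε) (z : MS k) :
    ENNReal.ofReal (uG s w2 ε z + uG s w2 ε x + uG s w2 ε x') < tripleCostM s (z, x, x') :=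
  lt_cost_torus23 hp (uG_le hp.hs z (hw z)) (uG_le hp.hs x (hw x)) (uG_le hp.hs x' (hw x'))
    hx hx' z

theorem uG_lt_cost_of_no_torus {s w2 ε : ℝ} (hs : 0 < s) {x y z : MS k} (hx : x ∉ torus ε)
    (hy : y ∉ torus ε) (hz : z ∉ torus ε) :
    ENNReal.ofReal (uG s w2 ε x + uG s w2 ε y + uG s w2 ε z) < tripleCostM s (x, y, z) := by
  rw [uG_of_not_mem hx, uG_of_not_mem hy, uG_of_not_mem hz]
  exact lt_cost_nonpos hs (UB_nonpos hs x) (UB_nonpos hs y) (UB_nonpos hs z) x y z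

/-- **Right-type triples**: apex in the torus (position 1), the other two points outside. -/
theorem uG_le_cost_apex1 {s w2 ε : ℝ} (hs : 0 < s) {x y z : MS k} (hx : x ∈ torus ε)
    (hw : 0 < wA s w2 x ∧ 2 * wA s w2 x ^ 2 < 1) (hy : y ∉ torus ε) (hz : z ∉ torus ε) :
    ENNReal.ofReal (uG s w2 ε x + uG s w2 ε y + uG s w2 ε z) ≤ tripleCostM s (x, y, z) := by
  rw [uG_of_mem hx, uG_of_not_mem hy, uG_of_not_mem hz]
  exact pointwise_ineq s hs _ hw.1 hw.2 x y z

/-- apex in position 2 -/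
theorem uG_le_cost_apex2 {s w2 ε : ℝ} (hs : 0 < s) {x y z : MS k} (hx : x ∈ torus ε)
    (hw : 0 < wA s w2 x ∧ 2 * wA s w2 x ^ 2 < 1) (hy : y ∉ torus ε) (hz : z ∉ torus ε) :
    ENNReal.ofReal (uG s w2 ε y + uG s w2 ε x + uG s w2 ε z) ≤ tripleCostM s (y, x, z) := by
  rw [tripleCostM_symm12, add_comm (uG s w2 ε y)]
  exact uG_le_cost_apex1 hs hx hw hy hz

/-- apex in position 3 -/
theorem uG_le_cost_apex3 {s w2 ε : ℝ} (hs : 0 < s) {x y z : MS k} (hx : x ∈ torus ε)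
    (hw : 0 < wA s w2 x ∧ 2 * wA s w2 x ^ 2 < 1) (hy : y ∉ torus ε) (hz : z ∉ torus ε) :
    ENNReal.ofReal (uG s w2 ε y + uG s w2 ε z + uG s w2 ε x) ≤ tripleCostM s (y, z, x) := by
  rw [tripleCostM_cycle, add_comm, ← add_assoc]
  exact uG_le_cost_apex1 hs hx hw hy hz

/-- **Admissibility of `uG` for all triples** (given that the apex shape is admissible on the
torus). -/
theorem uG_adm {s w2 ε : ℝ} (hp : GoodParams s w2 ε)
    (hw : ∀ x : MS k, x ∈ torus ε → 0 < wA s w2 x ∧ 2 * wA s w2 x ^ 2 < 1) (x y z : MS k) :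
    ENNReal.ofReal (uG s w2 ε x + uG s w2 ε y + uG s w2 ε z) ≤ tripleCostM s (x, y, z) := by
  by_cases hx : x ∈ torus ε
  · by_cases hy : y ∈ torus ε
    · exact (uG_lt_cost_of_two_torus12 hp hw hx hy z).le
    · by_cases hz : z ∈ torus ε
      · exact (uG_lt_cost_of_two_torus13 hp hw hx hz y).le
      · exact uG_le_cost_apex1 hp.hs hx (hw x hx) hy hz
  · by_cases hy : y ∈ torus ε
    · by_cases hz : z ∈ torus ε
      · exact (uG_lt_cost_of_two_torus23 hp hw hy hz x).le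
      · exact uG_le_cost_apex2 hp.hs hy (hw y hy) hx hz
    · by_cases hz : z ∈ torus ε
      · exact uG_le_cost_apex3 hp.hs hz (hw z hz) hx hy
      · exact (uG_lt_cost_of_no_torus hp.hs hx hy hz).le

/-- **Contact triples have exactly one point in the torus**: if the cost equals the sum of the
potentials, exactly one of the three points lies in the torus. -/
theorem one_torus_of_contact {s w2 ε : ℝ} (hp : GoodParams s w2 ε)
    (hw : ∀ x : MS k, x ∈ torus ε → 0 < wA s w2 x ∧ 2 * wA s w2 x ^ 2 < 1) {x y z : MS k}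
    (h : tripleCostM s (x, y, z) = ENNReal.ofReal (uG s w2 ε x + uG s w2 ε y + uG s w2 ε z)) :
    (x ∈ torus ε ∧ y ∉ torus ε ∧ z ∉ torus ε) ∨ (x ∉ torus ε ∧ y ∈ torus ε ∧ z ∉ torus ε) ∨
      (x ∉ torus ε ∧ y ∉ torus ε ∧ z ∈ torus ε) := by
  by_cases hx : x ∈ torus ε
  · by_cases hy : y ∈ torus ε
    · exact absurd h (uG_lt_cost_of_two_torus12 hp hw hx hy z).ne'
    · by_cases hz : z ∈ torus ε
      · exact absurd h (uG_lt_cost_of_two_torus13 hp hw hx hz y).ne'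
      · exact Or.inl ⟨hx, hy, hz⟩
  · by_cases hy : y ∈ torus ε
    · by_cases hz : z ∈ torus ε
      · exact absurd h (uG_lt_cost_of_two_torus23 hp hw hy hz x).ne'
      · exact Or.inr (Or.inl ⟨hx, hy, hz⟩)
    · by_cases hz : z ∈ torus ε
      · exact Or.inr (Or.inr ⟨hx, hy, hz⟩)
      · exact absurd h (uG_lt_cost_of_no_torus hp.hs hx hy hz).ne'

end Crest.Agent.Helper31
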